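import Vale.Agent.P256.Garding

/-!
# P256: basic facts about hyperbolicity cones
-/

namespace Vale.Agent.P256

open MvPolynomial Filter Topology

variable {ι : Type} {d : ℕ} {q : MvPolynomial ι ℝ} {E : ι → ℝ}

theorem aeval_real (q : MvPolynomial ι ℝ) (v : ι → ℝ) :
    aeval (fun i => (v i : ℂ)) q = ((eval v q : ℝ) : ℂ) :=
  aeval_algebraMap_apply (B := ℂ) v q

theorem eval_neg' (hq : q.IsHomogeneous d) (v : ι → ℝ) :
    eval (-v) q = (-1) ^ d * eval v q := by
  simpa using eval_smul' q hq (-1) v

theorem real_root (hE : IsHyperbolic d q E) (y : ι → ℝ) (z : ℂ)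
    (h : aeval (fun i => z * (E i : ℂ) + (y i : ℂ)) q = 0) : z.im = 0 := by
  refine hE.2.2 (-y) z ?_
  simpa using h

theorem mem_iff (hE : IsHyperbolic d q E) (y : ι → ℝ) :
    y ∈ hypCone q E ↔ ∀ τ : ℝ, 0 < τ → eval (y + τ • E) q ≠ 0 := by
  have key : ∀ τ : ℝ, eval ((-τ) • E - y) q = (-1) ^ d * eval (y + τ • E) q := by
    intro τ
    rw [← eval_neg' hE.1]
    congr 2
    module
  constructor
  · intro h τ hτ h0
    have := h (-τ) (by rw [key, h0, mul_zero])
    linarith
  · intro h t ht
    by_contra hneg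
    rw [not_le] at hneg
    refine h (-t) (by linarith) ?_
    have h1 := key (-t)
    rw [neg_neg, ht] at h1
    rcases mul_eq_zero.1 h1.symm with h2 | h2
    · exact absurd h2 (pow_ne_zero d (by norm_num))
    · exact h2

theorem zero_mem (hE : IsHyperbolic d q E) : (0 : ι → ℝ) ∈ hypCone q E := by
  rw [mem_iff hE]
  intro τ hτ
  rw [zero_add, eval_smul' q hE.1]
  exact mul_ne_zero (pow_ne_zero d hτ.ne') hE.2.1.ne'

theorem smul_mem (hE : IsHyperbolic d q E) {y : ι → ℝ} (hy : y ∈ hypCone q E) {c : ℝ}
    (hc : 0 ≤ c) : c • y ∈ hypCone q E := by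
  rcases hc.eq_or_lt with rfl | hc'
  · simpa using zero_mem hE
  rw [mem_iff hE] at hy ⊢
  intro τ hτ
  have e : c • y + τ • E = c • (y + (τ / c) • E) := by
    rw [smul_add, smul_smul, mul_div_cancel₀ _ hc'.ne']
  rw [e, eval_smul' q hE.1]
  exact mul_ne_zero (pow_ne_zero d hc'.ne') (hy _ (div_pos hτ hc'))

theorem shadow_convex [Fintype ι] {S : Set (ι → ℝ)} (hS : IsShadow S) : Convex ℝ S := by
  obtain ⟨k, a, A₀, A, B, -, -, -, rfl⟩ := hS
  rintro x ⟨u, hu⟩ y ⟨w, hw⟩ α β hα hβ hαβ
  refine ⟨α • u + β • w, ?_⟩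
  have h := (hu.smul hα).add (hw.smul hβ)
  have key : A₀ + ∑ i, (α • x + β • y) i • A i + ∑ j, (α • u + β • w) j • B j =
      α • (A₀ + ∑ i, x i • A i + ∑ j, u j • B j) +
        β • (A₀ + ∑ i, y i • A i + ∑ j, w j • B j) := by
    simp only [Pi.add_apply, Pi.smul_apply, smul_eq_mul, add_smul, ← smul_smul,
      Finset.sum_add_distrib, smul_add, Finset.smul_sum]
    have hA : A₀ = α • A₀ + β • A₀ := by rw [← add_smul, hαβ, one_smul]
    conv_lhs => rw [hA]
    abel
  rwa [key]

theorem add_mem' (hE : IsHyperbolic d q E) (hconv : Convex ℝ (hypCone q E)) {y z : ι → ℝ}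
    (hy : y ∈ hypCone q E) (hz : z ∈ hypCone q E) : y + z ∈ hypCone q E := by
  have h := smul_mem hE (hconv hy hz (by norm_num : (0 : ℝ) ≤ 1 / 2) (by norm_num : (0 : ℝ) ≤ 1 / 2)
    (by norm_num)) (by norm_num : (0 : ℝ) ≤ 2)
  rwa [smul_add, smul_smul, smul_smul, show (2 : ℝ) * (1 / 2) = 1 by norm_num, one_smul,
    one_smul] at h

theorem cone_closed (hE : IsHyperbolic d q E) : IsClosed (hypCone q E) := by
  rw [← isOpen_compl_iff, isOpen_iff_mem_nhds]
  intro y hy
  simp only [Set.mem_compl_iff, mem_iff hE, not_forall, not_not] at hy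
  obtain ⟨τ, hτ, h0⟩ := hy
  set h : ι → ℂ := fun i => (E i : ℂ) with hh
  have hcoef : aeval h q ≠ 0 := by
    rw [hh, aeval_real]
    exact_mod_cast hE.2.1.ne'
  have key : ∀ y' : ι → ℝ, (linePoly q h fun i => (y' i : ℂ)).eval (τ : ℂ) =
      ((eval (y' + τ • E) q : ℝ) : ℂ) := by
    intro y'
    rw [linePoly_eval, ← aeval_real]
    congr 2
    funext i
    simp [hh, add_comm]
  have hsmall : ∀ᶠ y' in 𝓝 y, ‖(linePoly q h fun i => (y' i : ℂ)).eval (τ : ℂ)‖ <
      ‖aeval h q‖ * τ ^ d := by
    have hc : Continuous fun y' : ι → ℝ =>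
        ‖(linePoly q h fun i => (y' i : ℂ)).eval (τ : ℂ)‖ := by
      simp only [linePoly_eval]
      exact (continuous_aeval_comp q (continuous_const.add (continuous_pi fun i =>
        Complex.continuous_ofReal.comp (continuous_apply i)))).norm
    refine hc.continuousAt.eventually (gt_mem_nhds ?_)
    show ‖(linePoly q h fun i => (y i : ℂ)).eval (τ : ℂ)‖ < _
    rw [key, h0]
    simpa using mul_pos (norm_pos_iff.2 hcoef) (pow_pos hτ d)
  filter_upwards [hsmall] with y' hy'
  obtain ⟨hnd, hco⟩ := linePoly_degree q hE.1 h fun i => (y' i : ℂ)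
  rw [← hco] at hy'
  obtain ⟨r, hr, hr0⟩ := exists_root_near hnd (by rw [hco]; exact hcoef) hτ hy'
  rw [linePoly_eval] at hr0
  have him : r.im = 0 := real_root hE y' r (by simpa [hh, Pi.smul_def, Pi.add_def] using hr0)
  have hre : (r.re : ℂ) = r := Complex.ext rfl (by simp [him])
  have hpos : 0 < r.re := by
    have h1 := (Complex.abs_re_le_norm ((τ : ℂ) - r)).trans_lt hr
    rw [Complex.sub_re, Complex.ofReal_re, abs_lt] at h1
    linarith
  intro hmem
  rw [mem_iff hE] at hmem
  refine hmem r.re hpos ?_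
  have : aeval (fun i => (((y' + r.re • E) i : ℝ) : ℂ)) q = 0 := by
    rw [← hr0]
    congr 2
    funext i
    simp [hh, hre, add_comm]
  rw [aeval_real] at this
  exact_mod_cast this

variable [Fintype ι]

/-- No zeros in `ℝ^ι + i (H + ℝ_{>0} E)`. -/
theorem stable (hE : IsHyperbolic d q E) (x : ι → ℝ) {h : ι → ℝ} (hh : h ∈ hypCone q E) {α : ℝ}
    (hα : 0 < α) :
    aeval (fun i => (x i : ℂ) + Complex.I * ((h i + α * E i : ℝ) : ℂ)) q ≠ 0 := by
  have hI : Complex.I ≠ 0 := Complex.I_ne_zero
  set h' : ι → ℂ := fun i => ((h i + α / 2 * E i : ℝ) : ℂ) with hh'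
  have hne : aeval h' q ≠ 0 := by
    rw [hh', aeval_real]
    exact_mod_cast (mem_iff hE h).1 hh (α / 2) (by linarith)
  have hmain := no_roots_of_connected (T := ℝ) q hE.1 hne
    (c := fun l i => ((l * x i : ℝ) : ℂ) + Complex.I * ((α / 2 * E i : ℝ) : ℂ))
    (by fun_prop) (Φ := Complex.im) Complex.continuous_im
    (by
      intro l w hw hzero
      have hwr : (w.re : ℂ) = w := Complex.ext rfl (by simp [hw])
      have := real_root hE (fun i => l * x i + w.re * (h i + α / 2 * E i))
        (Complex.I * ((α / 2 : ℝ) : ℂ)) (by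
          rw [← hzero]
          congr 2
          funext i
          simp only [hh', Pi.add_apply, Pi.smul_apply, smul_eq_mul]
          push_cast
          rw [hwr]
          ring)
      simp at this
      linarith)
    0 (by
      intro w hw hzero
      by_cases hw0 : w = 0
      · have e : (w • h' + fun i => ((0 * x i : ℝ) : ℂ) + Complex.I * ((α / 2 * E i : ℝ) : ℂ)) =
            (Complex.I * ((α / 2 : ℝ) : ℂ)) • fun i => (E i : ℂ) := by
          funext i
          simp [hw0]
          ring
        rw [e, aeval_smul q hE.1, aeval_real] at hzero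
        rcases mul_eq_zero.1 hzero with h1 | h1
        · exact pow_ne_zero d (mul_ne_zero hI (by exact_mod_cast (by linarith : α / 2 ≠ 0))) h1
        · exact hE.2.1.ne' (by exact_mod_cast h1)
      · set z : ℂ := ((α / 2 : ℝ) : ℂ) + Complex.I * ((α / 2 : ℝ) : ℂ) / w with hz
        have e : (w • h' + fun i => ((0 * x i : ℝ) : ℂ) + Complex.I * ((α / 2 * E i : ℝ) : ℂ)) =
            w • fun i => z * (E i : ℂ) + (h i : ℂ) := by
          funext i
          simp only [hh', hz, Pi.add_apply, Pi.smul_apply, smul_eq_mul]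
          push_cast
          field_simp
          ring
        rw [e, aeval_smul q hE.1] at hzero
        rcases mul_eq_zero.1 hzero with h1 | h1
        · exact pow_ne_zero d hw0 h1
        · have him := real_root hE h z h1
          have hN : 0 < Complex.normSq w := Complex.normSq_pos.2 hw0
          have him' : α / 2 * w.re / Complex.normSq w = 0 := by
            rw [← him, hz]
            simp [Complex.div_im]
          have hre0 : w.re = 0 := by
            rcases div_eq_zero_iff.1 him' with h2 | h2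
            · rcases mul_eq_zero.1 h2 with h3 | h3
              · linarith
              · exact h3
            · exact absurd h2 hN.ne'
          have hzpos : 0 < z.re := by
            have : z.re = α / 2 + α / 2 * w.im / Complex.normSq w := by
              rw [hz]
              simp [Complex.div_re, hre0]
            rw [this]
            have : 0 ≤ α / 2 * w.im / Complex.normSq w := by positivity
            linarith
          refine (mem_iff hE h).1 hh z.re hzpos ?_
          have hzr : (z.re : ℂ) = z := Complex.ext rfl (by simp [him])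
          have : aeval (fun i => (((h + z.re • E) i : ℝ) : ℂ)) q = 0 := by
            rw [← h1]
            congr 2
            funext i
            simp [hzr, add_comm]
          rw [aeval_real] at this
          exact_mod_cast this)
    1 Complex.I (by simp)
  intro hzero
  apply hmain
  rw [← hzero]
  congr 2
  funext i
  simp only [hh', Pi.add_apply, Pi.smul_apply, smul_eq_mul]
  push_cast
  ring

/-- Along a path free of zeros, strict interiority persists. -/
theorem path_mem (hE : IsHyperbolic d q E) {T : Type} [TopologicalSpace T] [PreconnectedSpace T]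
    {y : T → ι → ℝ} (hy : Continuous y) (hne : ∀ t, eval (y t) q ≠ 0) (t₀ : T)
    (h0 : ∀ τ : ℝ, 0 ≤ τ → eval (y t₀ + τ • E) q ≠ 0) (t : T) : y t ∈ hypCone q E := by
  have hcoef : aeval (fun i => (E i : ℂ)) q ≠ 0 := by
    rw [aeval_real]
    exact_mod_cast hE.2.1.ne'
  have conv' : ∀ (t : T) (w : ℂ),
      (w • (fun i => (E i : ℂ)) + fun i => (y t i : ℂ)) =
        fun i => w * (E i : ℂ) + (y t i : ℂ) := fun t w => rfl
  have key : ∀ (t : T) (τ : ℝ), aeval (fun i => (τ : ℂ) * (E i : ℂ) + (y t i : ℂ)) q =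
      ((eval (y t + τ • E) q : ℝ) : ℂ) := by
    intro t τ
    rw [← aeval_real]
    congr 2
    funext i
    simp [add_comm]
  have hmain := no_roots_of_connected (T := T) q hE.1 hcoef
    (c := fun t i => (y t i : ℂ))
    (continuous_pi fun i => Complex.continuous_ofReal.comp ((continuous_apply i).comp hy))
    (Φ := Complex.re) Complex.continuous_re
    (by
      intro t w hw hzero
      rw [conv'] at hzero
      have hw0 : w = ((0 : ℝ) : ℂ) := Complex.ext (by simp [hw]) (by
        simpa using real_root hE (y t) w hzero)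
      rw [hw0, key] at hzero
      simp only [zero_smul, add_zero] at hzero
      exact hne t (by exact_mod_cast hzero))
    t₀ (by
      intro w hw hzero
      rw [conv'] at hzero
      have hwr : w = ((w.re : ℝ) : ℂ) := Complex.ext rfl (by simp [real_root hE (y t₀) w hzero])
      rw [hwr, key] at hzero
      exact h0 w.re hw (by exact_mod_cast hzero))
  rw [mem_iff hE]
  intro τ hτ h1
  refine hmain t (τ : ℂ) (by simpa using hτ.le) ?_
  rw [conv', key, h1]
  simp

/-- Points close to the ray through `E` are free of zeros. -/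
theorem near_ray (hE : IsHyperbolic d q E) :
    ∃ δ > 0, ∀ (r : ℝ) (z : ι → ℝ), 0 < r → ‖z‖ < δ * r → eval (r • E + z) q ≠ 0 := by
  have hz : ∀ᶠ z in 𝓝 (0 : ι → ℝ), eval (E + z) q ≠ 0 := by
    refine ((MvPolynomial.continuous_eval q).comp
      (continuous_const.add continuous_id)).continuousAt.eventually (isOpen_ne.mem_nhds ?_)
    simpa using hE.2.1.ne'
  obtain ⟨δ, hδ, hball⟩ := Metric.eventually_nhds_iff.1 hz
  refine ⟨δ, hδ, fun r z hr hzr => ?_⟩
  have e : r • E + z = r • (E + r⁻¹ • z) := by
    rw [smul_add, smul_smul, mul_inv_cancel₀ hr.ne', one_smul]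
  rw [e, eval_smul' q hE.1]
  refine mul_ne_zero (pow_ne_zero d hr.ne') (hball ?_)
  rw [dist_zero_right, norm_smul, norm_inv, Real.norm_of_nonneg hr.le, inv_mul_lt_iff₀ hr]
  linarith

end Vale.Agent.P256
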