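import Mathlib

/-!
# P256: hyperbolic polynomials, hyperbolicity cones, spectrahedral shadows
-/

namespace Vale.Agent.P256

open MvPolynomial

/-- `p` is homogeneous of degree `d`, positive at `e`, and all complex roots of
`t ↦ p (t e - x)` are real for every real `x`. -/
def IsHyperbolic {σ : Type} (d : ℕ) (p : MvPolynomial σ ℝ) (e : σ → ℝ) : Prop :=
  p.IsHomogeneous d ∧ 0 < eval e p ∧
    ∀ (x : σ → ℝ) (z : ℂ), aeval (fun i => z * (e i : ℂ) - (x i : ℂ)) p = 0 → z.im = 0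

/-- The closed hyperbolicity cone: all roots of `t ↦ p (t e - x)` are nonnegative. -/
def hypCone {σ : Type} (p : MvPolynomial σ ℝ) (e : σ → ℝ) : Set (σ → ℝ) :=
  {x | ∀ t : ℝ, eval (t • e - x) p = 0 → 0 ≤ t}

/-- A spectrahedral shadow: a linear image of a spectrahedron. -/
def IsShadow {σ : Type} [Fintype σ] (S : Set (σ → ℝ)) : Prop :=
  ∃ (k a : ℕ) (A₀ : Matrix (Fin k) (Fin k) ℝ) (A : σ → Matrix (Fin k) (Fin k) ℝ)
    (B : Fin a → Matrix (Fin k) (Fin k) ℝ),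
    A₀.IsSymm ∧ (∀ i, (A i).IsSymm) ∧ (∀ j, (B j).IsSymm) ∧
      S = {x | ∃ u : Fin a → ℝ, (A₀ + ∑ i, x i • A i + ∑ j, u j • B j).PosSemidef}

/-- The value at `X` of the linear map `Sym_N → ℝ^ι` given by one matrix per coordinate. -/
def matMap {ι : Type} {N : ℕ} (P : ι → Matrix (Fin N) (Fin N) ℝ)
    (X : Matrix (Fin N) (Fin N) ℝ) : ι → ℝ :=
  fun i => ∑ j, ∑ k, P i j k * X j k

/-- The Schur extension `q (s C - Ψ (v vᵀ))` of `q`, in the variables `(s, C, v)`. -/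
noncomputable def schurExt {ι : Type} {N : ℕ} (q : MvPolynomial ι ℝ)
    (P : ι → Matrix (Fin N) (Fin N) ℝ) : MvPolynomial (Unit ⊕ ι ⊕ Fin N) ℝ :=
  aeval (fun i => X (Sum.inl ()) * X (Sum.inr (Sum.inl i)) -
    ∑ j, ∑ k, C (P i j k) * (X (Sum.inr (Sum.inr j)) * X (Sum.inr (Sum.inr k)))) q

/-- The distinguished point `(1, E, 0)`. -/
def schurPt {ι : Type} (N : ℕ) (E : ι → ℝ) : Unit ⊕ ι ⊕ Fin N → ℝ :=
  Sum.elim (fun _ => 1) (Sum.elim E (fun _ => 0))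

end Vale.Agent.P256
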