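import Vale.Agent.P256.Defs

/-!
# P256: root propagation, stability, and closedness of hyperbolicity cones
-/

namespace Vale.Agent.P256

open MvPolynomial Filter Topology

variable {ι : Type} {d : ℕ}

theorem support_sum {q : MvPolynomial ι ℝ} (hq : q.IsHomogeneous d) {m : ι →₀ ℕ}
    (hm : m ∈ q.support) : ∑ i ∈ m.support, m i = d := by
  rw [← hq (mem_support_iff.1 hm), Finsupp.weight_apply]
  simp [Finsupp.sum]

theorem aeval_smul (q : MvPolynomial ι ℝ) (hq : q.IsHomogeneous d) (c : ℂ) (w : ι → ℂ) :
    aeval (c • w) q = c ^ d * aeval w q := by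
  conv_lhs => rw [q.as_sum]
  conv_rhs => rw [q.as_sum]
  simp only [map_sum, Finset.mul_sum]
  refine Finset.sum_congr rfl fun m hm => ?_
  have hdeg := support_sum hq hm
  simp only [aeval_monomial, Pi.smul_apply, smul_eq_mul, mul_pow, Finsupp.prod,
    Finset.prod_mul_distrib, Finset.prod_pow_eq_pow_sum]
  rw [hdeg]
  ring

theorem eval_smul' (q : MvPolynomial ι ℝ) (hq : q.IsHomogeneous d) (c : ℝ) (w : ι → ℝ) :
    eval (c • w) q = c ^ d * eval w q := by
  have h := aeval_smul q hq (c : ℂ) (fun i => (w i : ℂ))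
  have h1 : ∀ v : ι → ℝ, aeval (fun i => (v i : ℂ)) q = ((eval v q : ℝ) : ℂ) := fun v =>
    aeval_algebraMap_apply (B := ℂ) v q
  have h2 : ((c : ℂ) • fun i => (w i : ℂ)) = fun i => (((c • w) i : ℝ) : ℂ) := by
    funext i; simp
  rw [h2, h1, h1] at h
  exact_mod_cast h

/-- The univariate polynomial `w ↦ q (w h + c)`. -/
noncomputable def linePoly (q : MvPolynomial ι ℝ) (h c : ι → ℂ) : Polynomial ℂ :=
  aeval (fun i => Polynomial.C (h i) * Polynomial.X + Polynomial.C (c i)) q

theorem linePoly_eval (q : MvPolynomial ι ℝ) (h c : ι → ℂ) (w : ℂ) :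
    (linePoly q h c).eval w = aeval (w • h + c) q := by
  induction q using MvPolynomial.induction_on with
  | C a => simp [linePoly, Polynomial.eval_C]
  | add p r hp hr => simp [linePoly] at hp hr ⊢; rw [hp, hr]
  | mul_X p i hp =>
    simp [linePoly] at hp ⊢
    rw [hp]
    ring

theorem linePoly_degree (q : MvPolynomial ι ℝ) (hq : q.IsHomogeneous d) (h c : ι → ℂ) :
    (linePoly q h c).natDegree ≤ d ∧ (linePoly q h c).coeff d = aeval h q := by
  have hl : ∀ i, (Polynomial.C (h i) * Polynomial.X + Polynomial.C (c i)).natDegree ≤ 1 :=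
    fun i => Polynomial.natDegree_linear_le
  have key : ∀ m ∈ q.support,
      (m.prod fun i k => (Polynomial.C (h i) * Polynomial.X + Polynomial.C (c i)) ^ k).natDegree
        ≤ d ∧
      (m.prod fun i k => (Polynomial.C (h i) * Polynomial.X + Polynomial.C (c i)) ^ k).coeff d =
        m.prod fun i k => h i ^ k := by
    intro m hm
    have hdeg := support_sum hq hm
    have hp : ∀ i ∈ m.support,
        ((Polynomial.C (h i) * Polynomial.X + Polynomial.C (c i)) ^ m i).natDegree ≤ m i := by
      intro i _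
      exact Polynomial.natDegree_pow_le.trans
        (by simpa using Nat.mul_le_mul_left (m i) (hl i))
    refine ⟨?_, ?_⟩
    · refine (Polynomial.natDegree_prod_le _ _).trans ?_
      rw [← hdeg]
      exact Finset.sum_le_sum hp
    · rw [← hdeg]
      have hc : ∀ i ∈ m.support,
          ((Polynomial.C (h i) * Polynomial.X + Polynomial.C (c i)) ^ m i).coeff (m i) =
            h i ^ m i := by
        intro i _
        have := Polynomial.coeff_pow_of_natDegree_le (m := m i) (hl i)
        simpa [Polynomial.coeff_add] using this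
      unfold Finsupp.prod
      classical
      generalize m.support = s at hp hc
      induction s using Finset.induction_on with
      | empty => simp
      | @insert a s has ih =>
        have hps : ∀ i ∈ s,
            ((Polynomial.C (h i) * Polynomial.X + Polynomial.C (c i)) ^ m i).natDegree ≤ m i :=
          fun i hi => hp i (Finset.mem_insert_of_mem hi)
        rw [Finset.prod_insert has, Finset.sum_insert has, Finset.prod_insert has,
          Polynomial.coeff_mul_add_eq_of_natDegree_le (hp a (Finset.mem_insert_self _ _))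
            ((Polynomial.natDegree_prod_le _ _).trans (Finset.sum_le_sum hps)),
          hc a (Finset.mem_insert_self _ _), ih hps fun i hi => hc i (Finset.mem_insert_of_mem hi)]
  have hexp : linePoly q h c = ∑ m ∈ q.support, Polynomial.C ((q.coeff m : ℝ) : ℂ) *
      m.prod fun i k => (Polynomial.C (h i) * Polynomial.X + Polynomial.C (c i)) ^ k := by
    unfold linePoly
    conv_lhs => rw [q.as_sum]
    rw [map_sum]
    refine Finset.sum_congr rfl fun m _ => ?_
    rw [aeval_monomial, IsScalarTower.algebraMap_apply ℝ ℂ (Polynomial ℂ)]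
    rfl
  refine ⟨?_, ?_⟩
  · rw [hexp]
    refine Polynomial.natDegree_sum_le_of_forall_le _ _ fun m hm => ?_
    exact (Polynomial.natDegree_C_mul_le _ _).trans (key m hm).1
  · rw [hexp, Polynomial.finsetSum_coeff]
    conv_rhs => rw [q.as_sum]
    simp only [map_sum, aeval_monomial, Polynomial.coeff_C_mul]
    refine Finset.sum_congr rfl fun m hm => ?_
    rw [(key m hm).2]
    rfl

/-- A polynomial with nonzero top coefficient that is small at `w` has a root near `w`. -/
theorem exists_root_near {g : Polynomial ℂ} (hd : g.natDegree ≤ d) (hc : g.coeff d ≠ 0) {w : ℂ}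
    {δ : ℝ} (hδ : 0 < δ) (hsmall : ‖g.eval w‖ < ‖g.coeff d‖ * δ ^ d) :
    ∃ r : ℂ, ‖w - r‖ < δ ∧ g.eval r = 0 := by
  by_contra hcon
  simp only [not_exists, not_and] at hcon
  have hg : g ≠ 0 := fun h => hc (by simp [h])
  have hnd : g.natDegree = d := le_antisymm hd (Polynomial.le_natDegree_of_ne_zero hc)
  have hsp : g.Splits := IsAlgClosed.splits g
  have hev := hsp.eval_eq_prod_roots w
  have hcard : g.roots.card = d := by
    rw [← hnd]
    exact hsp.natDegree_eq_card_roots.symm
  have hfar : ∀ r ∈ g.roots, δ ≤ ‖w - r‖ := by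
    intro r hr
    by_contra hlt
    exact hcon r (not_le.1 hlt) ((Polynomial.mem_roots hg).1 hr)
  have hnorm : δ ^ g.roots.card ≤ ‖(g.roots.map fun r => w - r).prod‖ := by
    clear hev hcard
    generalize g.roots = s at hfar
    induction s using Multiset.induction_on with
    | empty => simp
    | cons a s ih =>
      rw [Multiset.map_cons, Multiset.prod_cons, norm_mul, Multiset.card_cons, pow_succ']
      exact mul_le_mul (hfar a (Multiset.mem_cons_self _ _))
        (ih fun r hr => hfar r (Multiset.mem_cons_of_mem hr)) (by positivity) (norm_nonneg _)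
  rw [hcard] at hnorm
  have hlead : g.leadingCoeff = g.coeff d := by rw [Polynomial.leadingCoeff, hnd]
  rw [hev, norm_mul, hlead] at hsmall
  have := mul_le_mul_of_nonneg_left hnorm (norm_nonneg (g.coeff d))
  linarith

theorem continuous_aeval_comp {T : Type} [TopologicalSpace T] (q : MvPolynomial ι ℝ)
    {c : T → ι → ℂ} (hc : Continuous c) : Continuous fun t => aeval (c t) q := by
  induction q using MvPolynomial.induction_on with
  | C a => simpa using continuous_const
  | add p r hp hr =>
    simp only [map_add]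
    exact hp.add hr
  | mul_X p i hp =>
    simp only [map_mul, aeval_X]
    exact hp.mul ((continuous_apply i).comp hc)

variable [Fintype ι]

/-- A root in the closed region `0 ≤ Φ` cannot appear along a connected family whose boundary
`Φ = 0` stays free of roots. -/
theorem no_roots_of_connected {T : Type} [TopologicalSpace T] [PreconnectedSpace T]
    (q : MvPolynomial ι ℝ) (hq : q.IsHomogeneous d) {h : ι → ℂ} (hh : aeval h q ≠ 0)
    {c : T → ι → ℂ} (hc : Continuous c) {Φ : ℂ → ℝ} (hΦ : Continuous Φ)
    (hbd : ∀ t w, Φ w = 0 → aeval (w • h + c t) q ≠ 0)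
    (t₀ : T) (h0 : ∀ w, 0 ≤ Φ w → aeval (w • h + c t₀) q ≠ 0) :
    ∀ t w, 0 ≤ Φ w → aeval (w • h + c t) q ≠ 0 := by
  set S : Set T := {t | ∃ w, 0 ≤ Φ w ∧ aeval (w • h + c t) q = 0} with hS
  have hjoint : Continuous fun p : T × ℂ => aeval (p.2 • h + c p.1) q :=
    continuous_aeval_comp q ((continuous_snd.smul continuous_const).add (hc.comp continuous_fst))
  have hopen : IsOpen S := by
    rw [isOpen_iff_mem_nhds]
    rintro t₁ ⟨w₀, hw₀, hr₀⟩
    have hpos : 0 < Φ w₀ := lt_of_le_of_ne hw₀ fun e => hbd t₁ w₀ e.symm hr₀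
    obtain ⟨δ, hδ, hball⟩ := Metric.eventually_nhds_iff.1
      (hΦ.continuousAt.eventually (lt_mem_nhds hpos))
    have hsmall : ∀ᶠ t in 𝓝 t₁, ‖aeval (w₀ • h + c t) q‖ < ‖aeval h q‖ * δ ^ d := by
      have hcont : Continuous fun t => ‖aeval (w₀ • h + c t) q‖ :=
        (continuous_aeval_comp q (continuous_const.add hc)).norm
      refine hcont.continuousAt.eventually (gt_mem_nhds ?_)
      show ‖aeval (w₀ • h + c t₁) q‖ < _
      rw [hr₀, norm_zero]
      exact mul_pos (norm_pos_iff.2 hh) (pow_pos hδ d)
    filter_upwards [hsmall] with t ht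
    obtain ⟨hnd, hcoeff⟩ := linePoly_degree q hq h (c t)
    rw [← linePoly_eval, ← hcoeff] at ht
    obtain ⟨r, hr, hr0⟩ := exists_root_near hnd (by rw [hcoeff]; exact hh) hδ ht
    refine ⟨r, (hball ?_).le, by rw [← linePoly_eval]; exact hr0⟩
    rwa [dist_eq_norm, norm_sub_rev]
  have hclosed : IsClosed S := by
    rw [← isOpen_compl_iff, isOpen_iff_mem_nhds]
    intro t₁ ht₁
    have hz : ∀ᶠ z in 𝓝 (0 : ι → ℂ), aeval (h + z) q ≠ 0 := by
      refine (continuous_aeval_comp q (continuous_const.add continuous_id)).continuousAt.eventually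
        (isOpen_ne.mem_nhds ?_)
      simpa using hh
    obtain ⟨δ, hδ, hball⟩ := Metric.eventually_nhds_iff.1 hz
    set M : ℝ := ‖c t₁‖ + 1 with hM
    have hbound : ∀ᶠ t in 𝓝 t₁, ‖c t‖ < M :=
      hc.norm.continuousAt.eventually (gt_mem_nhds (by linarith))
    set K : Set ℂ := Metric.closedBall 0 (M / δ) ∩ {w | 0 ≤ Φ w} with hK
    have hKc : IsCompact K :=
      (isCompact_closedBall _ _).inter_right (isClosed_le continuous_const hΦ)
    have hev : ∀ᶠ t in 𝓝 t₁, ∀ w ∈ K, aeval (w • h + c t) q ≠ 0 := by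
      refine hKc.eventually_forall_of_forall_eventually fun w hw => ?_
      refine hjoint.continuousAt.eventually (isOpen_ne.mem_nhds ?_)
      exact fun hzero => ht₁ ⟨w, hw.2, hzero⟩
    filter_upwards [hev, hbound] with t ht htb
    rintro ⟨w, hw, hzero⟩
    refine ht w ⟨?_, hw⟩ hzero
    rw [Metric.mem_closedBall, dist_zero_right]
    by_contra hlarge
    rw [not_le] at hlarge
    have hMpos : 0 < M := by positivity
    have hwpos : 0 < ‖w‖ := lt_trans (div_pos hMpos hδ) hlarge
    have hw0 : w ≠ 0 := norm_pos_iff.1 hwpos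
    have e : w • h + c t = w • (h + w⁻¹ • c t) := by
      rw [smul_add, smul_smul, mul_inv_cancel₀ hw0, one_smul]
    rw [e, aeval_smul q hq] at hzero
    rcases mul_eq_zero.1 hzero with h1 | h1
    · exact pow_ne_zero d hw0 h1
    · refine hball ?_ h1
      rw [dist_zero_right, norm_smul, norm_inv, inv_mul_lt_iff₀ hwpos]
      rw [div_lt_iff₀ hδ] at hlarge
      linarith
  have hnot : t₀ ∉ S := fun ⟨w, hw, hr⟩ => h0 w hw hr
  intro t w hw hzero
  rcases isClopen_iff.1 ⟨hclosed, hopen⟩ with hE | hU
  · exact Set.notMem_empty t (hE ▸ (⟨w, hw, hzero⟩ : t ∈ S))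
  · exact hnot (hU ▸ Set.mem_univ t₀)

end Vale.Agent.P256
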