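import Vale.Agent.P256.Defs

/-!
# P256: building spectrahedral shadows
-/

namespace Vale.Agent.P256

open Matrix

theorem isShadow_univ {σ : Type} [Fintype σ] : IsShadow (Set.univ : Set (σ → ℝ)) := by
  refine ⟨0, 0, 0, fun _ => 0, fun j => j.elim0, isSymm_zero, fun _ => isSymm_zero,
    fun j => j.elim0, ?_⟩
  ext x
  simp only [Set.mem_univ, Set.mem_ofPred_eq, true_iff]
  refine ⟨fun j => j.elim0, ?_⟩
  have h : (0 : Matrix (Fin 0) (Fin 0) ℝ).PosSemidef := PosSemidef.zero
  convert h using 1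
  exact Subsingleton.elim _ _

/-- A set cut out by a linear pencil over any finite index types is a shadow. -/
theorem isShadow_of_linear {σ : Type} [Fintype σ] {κ κ' : Type} [Fintype κ]
    [Fintype κ'] (M₀ : Matrix κ κ ℝ) (L : (σ → ℝ) × (κ' → ℝ) →ₗ[ℝ] Matrix κ κ ℝ)
    (h0 : M₀.IsSymm) (hL : ∀ x, (L x).IsSymm) :
    IsShadow {x : σ → ℝ | ∃ u : κ' → ℝ, (M₀ + L (x, u)).PosSemidef} := by
  classical
  set eκ := Fintype.equivFin κ with heκ
  set eu := Fintype.equivFin κ' with heu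
  refine ⟨Fintype.card κ, Fintype.card κ', M₀.submatrix eκ.symm eκ.symm,
    fun i => (L (Pi.single i 1, 0)).submatrix eκ.symm eκ.symm,
    fun j => (L (0, Pi.single (eu.symm j) 1)).submatrix eκ.symm eκ.symm,
    h0.submatrix _, fun i => (hL _).submatrix _, fun j => (hL _).submatrix _, ?_⟩
  have key : ∀ (x : σ → ℝ) (u : κ' → ℝ),
      M₀.submatrix eκ.symm eκ.symm +
        ∑ i, x i • (L (Pi.single i 1, 0)).submatrix eκ.symm eκ.symm +
        ∑ j, u (eu.symm j) • (L (0, Pi.single (eu.symm j) 1)).submatrix eκ.symm eκ.symm =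
      (M₀ + L (x, u)).submatrix eκ.symm eκ.symm := by
    intro x u
    have hpair : (x, u) = ∑ i, x i • ((Pi.single i 1, 0) : (σ → ℝ) × (κ' → ℝ)) +
        ∑ j, u j • ((0, Pi.single j 1) : (σ → ℝ) × (κ' → ℝ)) := by
      apply Prod.ext <;>
      · simp only [Prod.fst_add, Prod.snd_add, Prod.fst_sum, Prod.snd_sum, Prod.smul_fst,
          Prod.smul_snd, smul_zero, Finset.sum_const_zero, add_zero, zero_add]
        exact pi_eq_sum_univ' _
    conv_rhs => rw [hpair]
    rw [map_add, map_sum, map_sum]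
    simp only [map_smul]
    rw [eu.symm.sum_comp (fun j => u j • (L (0, Pi.single j 1)).submatrix eκ.symm eκ.symm)]
    ext a b
    simp [Matrix.sum_apply, add_assoc]
  ext x
  simp only [Set.mem_ofPred_eq]
  constructor
  · rintro ⟨u, hu⟩
    refine ⟨fun j => u (eu.symm j), ?_⟩
    rw [key x u]
    exact hu.submatrix _
  · rintro ⟨u, hu⟩
    refine ⟨fun j => u (eu j), ?_⟩
    have h := key x (fun j => u (eu j))
    simp only [Equiv.apply_symm_apply] at h
    rw [h, posSemidef_submatrix_equiv] at hu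
    exact hu

/-- A block diagonal real matrix is positive semidefinite iff both blocks are. -/
theorem posSemidef_fromBlocks_iff {m n : Type} [Fintype m] [Fintype n] (A : Matrix m m ℝ)
    (D : Matrix n n ℝ) :
    (fromBlocks A 0 0 D).PosSemidef ↔ A.PosSemidef ∧ D.PosSemidef := by
  constructor
  · intro h
    exact ⟨h.submatrix (Sum.inl : m → m ⊕ n), h.submatrix (Sum.inr : n → m ⊕ n)⟩
  · rintro ⟨hA, hD⟩
    refine PosSemidef.of_dotProduct_mulVec_nonneg
      (hA.1.fromBlocks (by simp) hD.1) fun z => ?_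
    have e : fromBlocks A 0 0 D *ᵥ z =
        Sum.elim (A *ᵥ (z ∘ Sum.inl)) (D *ᵥ (z ∘ Sum.inr)) := by
      rw [fromBlocks_mulVec]
      simp
    rw [e]
    simp only [dotProduct, Fintype.sum_sum_type, Sum.elim_inl, Sum.elim_inr]
    exact add_nonneg (hA.dotProduct_mulVec_nonneg (z ∘ Sum.inl))
      (hD.dotProduct_mulVec_nonneg (z ∘ Sum.inr))

/-- The bordered matrix `[[s, uᵀ], [u, X]]`. -/
def bord {N : ℕ} (s : ℝ) (u : Fin N → ℝ) (X : Matrix (Fin N) (Fin N) ℝ) :
    Matrix (Unit ⊕ Fin N) (Unit ⊕ Fin N) ℝ :=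
  fromBlocks (of fun _ _ => s) (of fun _ j => u j) (of fun i _ => u i) X

theorem bord_isSymm {N : ℕ} (s : ℝ) (u : Fin N → ℝ) {X : Matrix (Fin N) (Fin N) ℝ}
    (hX : X.IsSymm) : (bord s u X).IsSymm := by
  refine IsSymm.fromBlocks ?_ ?_ hX <;>
  · ext i j
    simp

/-- From a bordered positive semidefinite matrix, `X - u uᵀ / a ⪰ 0` for `a ≥ s`, `a > 0`. -/
theorem bord_schur {N : ℕ} {s : ℝ} {u : Fin N → ℝ} {X : Matrix (Fin N) (Fin N) ℝ}
    (hX : X.IsSymm) (h : (bord s u X).PosSemidef) {a : ℝ} (ha : 0 < a) (has : s ≤ a) :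
    (X - a⁻¹ • vecMulVec u u).PosSemidef := by
  refine PosSemidef.of_dotProduct_mulVec_nonneg ?_ fun x => ?_
  · refine (isHermitian_iff_isSymm.2 ?_)
    ext i j
    simp [vecMulVec, hX.apply i j, mul_comm]
  · set c : ℝ := -(u ⬝ᵥ x) / a with hc
    have h2 := h.dotProduct_mulVec_nonneg (Sum.elim (fun _ : Unit => c) x)
    have e : star (Sum.elim (fun _ : Unit => c) x) ⬝ᵥ bord s u X *ᵥ Sum.elim (fun _ => c) x =
        s * c ^ 2 + 2 * c * (u ⬝ᵥ x) + x ⬝ᵥ X *ᵥ x := by
      have e0 : bord s u X *ᵥ Sum.elim (fun _ : Unit => c) x =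
          Sum.elim (fun _ : Unit => s * c + u ⬝ᵥ x) (fun i => u i * c + (X *ᵥ x) i) := by
        funext i
        rcases i with i | i <;> simp [bord, mulVec, dotProduct, Fintype.sum_sum_type]
      rw [e0, star_trivial]
      simp only [dotProduct, Fintype.sum_sum_type, Sum.elim_inl, Sum.elim_inr,
        Finset.univ_unique, Finset.sum_singleton, mul_add, Finset.sum_add_distrib]
      have : ∑ i, x i * (u i * c) = c * ∑ i, u i * x i := by
        rw [Finset.mul_sum]
        exact Finset.sum_congr rfl fun i _ => by ring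
      rw [this]
      ring
    rw [e] at h2
    have e2 : star x ⬝ᵥ (X - a⁻¹ • vecMulVec u u) *ᵥ x =
        a * c ^ 2 + 2 * c * (u ⬝ᵥ x) + x ⬝ᵥ X *ᵥ x := by
      rw [star_trivial, sub_mulVec, dotProduct_sub, smul_mulVec, dotProduct_smul]
      have e3 : x ⬝ᵥ vecMulVec u u *ᵥ x = (u ⬝ᵥ x) * (u ⬝ᵥ x) := by
        simp only [dotProduct, mulVec, vecMulVec_apply, Finset.mul_sum, Finset.sum_mul]
        refine Finset.sum_congr rfl fun i _ => Finset.sum_congr rfl fun j _ => ?_
        ring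
      rw [e3, hc, smul_eq_mul]
      field_simp
      ring
    rw [e2]
    have h3 : s * c ^ 2 ≤ a * c ^ 2 := mul_le_mul_of_nonneg_right has (sq_nonneg c)
    linarith

/-- The bordered rank-one matrix. -/
theorem bord_rankOne {N : ℕ} {s : ℝ} (hs : 0 < s) (u : Fin N → ℝ) :
    (bord s u (s⁻¹ • vecMulVec u u)).PosSemidef := by
  have h := (posSemidef_vecMulVec_self_star (Sum.elim (fun _ : Unit => s) u : Unit ⊕ Fin N → ℝ)).smul
    (inv_nonneg.2 hs.le)
  convert h using 1
  ext (i | i) (j | j) <;> simp [bord, vecMulVec] <;> field_simp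

end Vale.Agent.P256
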