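import Vale.Agent.P256.Cone
import Vale.Agent.P256.Shadow

/-!
# P256: Schur extensions of hyperbolicity cones with semidefinite lifts
-/

namespace Vale.Agent.P256

open MvPolynomial Filter Topology
open Matrix (vecMulVec of fromBlocks PosSemidef)

variable {ι : Type} [Fintype ι] {N d : ℕ} {q : MvPolynomial ι ℝ} {E : ι → ℝ}
  {P : ι → Matrix (Fin N) (Fin N) ℝ}

omit [Fintype ι] in
theorem matMap_add (P : ι → Matrix (Fin N) (Fin N) ℝ) (X Y : Matrix (Fin N) (Fin N) ℝ) :
    matMap P (X + Y) = matMap P X + matMap P Y := by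
  funext i
  simp [matMap, mul_add, Finset.sum_add_distrib]

omit [Fintype ι] in
theorem matMap_smul (P : ι → Matrix (Fin N) (Fin N) ℝ) (c : ℝ) (X : Matrix (Fin N) (Fin N) ℝ) :
    matMap P (c • X) = c • matMap P X := by
  funext i
  simp [matMap, Finset.mul_sum, mul_left_comm]

omit [Fintype ι] in
theorem schurExt_eval (q : MvPolynomial ι ℝ) (P : ι → Matrix (Fin N) (Fin N) ℝ)
    (y : Unit ⊕ ι ⊕ Fin N → ℝ) :
    eval y (schurExt q P) = eval (fun i => y (Sum.inl ()) * y (Sum.inr (Sum.inl i)) -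
      matMap P (vecMulVec (fun j => y (Sum.inr (Sum.inr j))) fun j => y (Sum.inr (Sum.inr j))) i)
      q := by
  unfold schurExt
  induction q using MvPolynomial.induction_on with
  | C a => simp
  | add p r hp hr => simp only [map_add, hp, hr]
  | mul_X p i hp =>
    simp only [map_mul, aeval_X, hp]
    simp [matMap, Matrix.vecMulVec_apply]

omit [Fintype ι] in
theorem schurExt_aeval (q : MvPolynomial ι ℝ) (P : ι → Matrix (Fin N) (Fin N) ℝ)
    (y : Unit ⊕ ι ⊕ Fin N → ℂ) :
    aeval y (schurExt q P) = aeval (fun i => y (Sum.inl ()) * y (Sum.inr (Sum.inl i)) -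
      ∑ j, ∑ k, (P i j k : ℂ) * (y (Sum.inr (Sum.inr j)) * y (Sum.inr (Sum.inr k)))) q := by
  unfold schurExt
  induction q using MvPolynomial.induction_on with
  | C a => simp
  | add p r hp hr => simp only [map_add, hp, hr]
  | mul_X p i hp =>
    simp only [map_mul, aeval_X, hp]
    simp

omit [Fintype ι] in
theorem schurExt_isHomogeneous (hq : q.IsHomogeneous d) :
    (schurExt q P).IsHomogeneous (2 * d) := by
  refine hq.aeval _ fun i => ?_
  refine IsHomogeneous.sub ((isHomogeneous_X _ _).mul (isHomogeneous_X _ _)) ?_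
  refine IsHomogeneous.sum _ _ _ fun j _ => IsHomogeneous.sum _ _ _ fun k _ => ?_
  exact ((isHomogeneous_X _ _).mul (isHomogeneous_X _ _)).C_mul _

theorem psd_vv (v : Fin N → ℝ) : (vecMulVec v v).PosSemidef := by
  simpa using Matrix.posSemidef_vecMulVec_self_star v

/-- The Schur extension is hyperbolic. -/
theorem schurExt_hyperbolic (hE : IsHyperbolic d q E)
    (hP : ∀ X : Matrix (Fin N) (Fin N) ℝ, X.PosSemidef → matMap P X ∈ hypCone q E) :
    IsHyperbolic (2 * d) (schurExt q P) (schurPt N E) := by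
  refine ⟨schurExt_isHomogeneous hE.1, ?_, ?_⟩
  · rw [schurExt_eval]
    have : (fun i => schurPt N E (Sum.inl ()) * schurPt N E (Sum.inr (Sum.inl i)) -
        matMap P (vecMulVec (fun j => schurPt N E (Sum.inr (Sum.inr j)))
          fun j => schurPt N E (Sum.inr (Sum.inr j))) i) = E := by
      funext i
      simp [schurPt, matMap, Matrix.vecMulVec_apply]
    rw [this]
    exact hE.2.1
  intro x z hz
  by_contra him
  set s : ℝ := x (Sum.inl ()) with hs
  set C₀ : ι → ℝ := fun i => x (Sum.inr (Sum.inl i)) with hC₀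
  set v : Fin N → ℝ := fun j => x (Sum.inr (Sum.inr j)) with hv
  set Q₀ : ι → ℝ := matMap P (vecMulVec v v) with hQ₀
  rw [schurExt_aeval] at hz
  have hval : (fun i => (z * ((schurPt N E (Sum.inl ())) : ℂ) - (x (Sum.inl ()) : ℂ)) *
      (z * ((schurPt N E (Sum.inr (Sum.inl i))) : ℂ) - (x (Sum.inr (Sum.inl i)) : ℂ)) -
      ∑ j, ∑ k, (P i j k : ℂ) *
        ((z * ((schurPt N E (Sum.inr (Sum.inr j))) : ℂ) - (x (Sum.inr (Sum.inr j)) : ℂ)) *
          (z * ((schurPt N E (Sum.inr (Sum.inr k))) : ℂ) - (x (Sum.inr (Sum.inr k)) : ℂ)))) =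
      (z - (s : ℂ)) • fun i =>
        z * (E i : ℂ) - (C₀ i : ℂ) - (Q₀ i : ℂ) * (z - (s : ℂ))⁻¹ := by
    have hne : z - (s : ℂ) ≠ 0 := by
      intro h
      apply him
      have := congrArg Complex.im h
      simpa using this
    funext i
    simp only [schurPt, Sum.elim_inl, Sum.elim_inr, Pi.smul_apply, smul_eq_mul, hs, hC₀, hQ₀, hv,
      matMap, Matrix.vecMulVec_apply]
    push_cast
    simp only [mul_zero, zero_sub, neg_mul_neg, mul_one]
    have hne' : z - (x (Sum.inl ()) : ℂ) ≠ 0 := by rw [← hs]; exact hne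
    rw [mul_sub (z - (x (Sum.inl ()) : ℂ)) (z * (E i : ℂ) - _), mul_left_comm _ _ (z - _)⁻¹,
      mul_inv_cancel₀ hne', mul_one]
  rw [hval, aeval_smul q hE.1] at hz
  have hne : z - (s : ℂ) ≠ 0 := by
    intro h
    exact him (by simpa using congrArg Complex.im h)
  rcases mul_eq_zero.1 hz with h1 | h1
  · exact pow_ne_zero d hne h1
  set a : ℂ := z - (s : ℂ) with ha
  set x' : ι → ℝ := fun i => z.re * E i - C₀ i - Q₀ i * (a⁻¹).re with hx'
  have hN : 0 < Complex.normSq a := Complex.normSq_pos.2 hne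
  have hain : (a⁻¹).im = -z.im / Complex.normSq a := by
    simp [ha, Complex.inv_im]
  have hQmem : ∀ c : ℝ, 0 ≤ c → c • Q₀ ∈ hypCone q E := fun c hc =>
    smul_mem hE (hP _ (psd_vv v)) hc
  have hsplit : ∀ i, z * (E i : ℂ) - (C₀ i : ℂ) - (Q₀ i : ℂ) * a⁻¹ =
      (x' i : ℂ) + Complex.I * ((z.im / Complex.normSq a * Q₀ i + z.im * E i : ℝ) : ℂ) := by
    intro i
    apply Complex.ext <;> simp [hx', hain]
    ring
  rcases lt_or_gt_of_ne him with hneg | hpos
  · refine stable hE (-x') (hQmem (-z.im / Complex.normSq a) (div_nonneg (by linarith) hN.le))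
      (by linarith : (0 : ℝ) < -z.im) ?_
    have e : (fun i => (((-x') i : ℝ) : ℂ) + Complex.I *
        (((-z.im / Complex.normSq a) • Q₀) i + -z.im * E i : ℝ)) =
        (-1 : ℂ) • fun i => z * (E i : ℂ) - (C₀ i : ℂ) - (Q₀ i : ℂ) * a⁻¹ := by
      funext i
      show _ = (-1 : ℂ) * (z * (E i : ℂ) - (C₀ i : ℂ) - (Q₀ i : ℂ) * a⁻¹)
      rw [hsplit]
      simp only [Pi.neg_apply, Pi.smul_apply, smul_eq_mul]
      push_cast
      ring
    rw [e, aeval_smul q hE.1, h1, mul_zero]
  · refine stable hE x' (hQmem (z.im / Complex.normSq a) (by positivity)) hpos ?_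
    rw [← h1]
    congr 2
    funext i
    rw [hsplit]
    simp [smul_eq_mul]

/-- The vectors sent into the lineality space. -/
def nullVecs (hE : IsHyperbolic d q E) (hconv : Convex ℝ (hypCone q E))
    (hP : ∀ X : Matrix (Fin N) (Fin N) ℝ, X.PosSemidef → matMap P X ∈ hypCone q E) :
    Submodule ℝ (Fin N → ℝ) where
  carrier := {v | -matMap P (vecMulVec v v) ∈ hypCone q E}
  zero_mem' := by
    have : matMap P (vecMulVec (0 : Fin N → ℝ) 0) = 0 := by
      funext i; simp [matMap, Matrix.vecMulVec_apply]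
    show -matMap P (vecMulVec (0 : Fin N → ℝ) 0) ∈ hypCone q E
    rw [this, neg_zero]
    exact zero_mem hE
  smul_mem' := by
    intro c v hv
    have h := smul_mem hE hv (mul_self_nonneg c)
    rw [smul_neg] at h
    show -matMap P (vecMulVec (c • v) (c • v)) ∈ hypCone q E
    have e : vecMulVec (c • v) (c • v) = (c * c) • vecMulVec v v := by
      ext i j; simp [Matrix.vecMulVec_apply]; ring
    rwa [e, matMap_smul]
  add_mem' := by
    intro u w hu hw
    have hsum : vecMulVec (u + w) (u + w) + vecMulVec (u - w) (u - w) =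
        (2 : ℝ) • vecMulVec u u + (2 : ℝ) • vecMulVec w w := by
      ext i j; simp [Matrix.vecMulVec_apply]; ring
    have hm : matMap P (vecMulVec (u + w) (u + w)) + matMap P (vecMulVec (u - w) (u - w)) =
        (2 : ℝ) • matMap P (vecMulVec u u) + (2 : ℝ) • matMap P (vecMulVec w w) := by
      rw [← matMap_add, hsum, matMap_add, matMap_smul, matMap_smul]
    have h := add_mem' hE hconv (add_mem' hE hconv (smul_mem hE hu (by norm_num : (0 : ℝ) ≤ 2))
      (smul_mem hE hw (by norm_num : (0 : ℝ) ≤ 2))) (hP _ (psd_vv (u - w)))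
    show -matMap P (vecMulVec (u + w) (u + w)) ∈ hypCone q E
    have e : -matMap P (vecMulVec (u + w) (u + w)) = (2 : ℝ) • -matMap P (vecMulVec u u) +
        (2 : ℝ) • -matMap P (vecMulVec w w) + matMap P (vecMulVec (u - w) (u - w)) := by
      rw [smul_neg, smul_neg, ← neg_add, ← hm]
      abel
    rwa [e]

/-- Modulo a null vector the value of `matMap` on rank-one matrices is unchanged. -/
theorem sub_null (hE : IsHyperbolic d q E) (hconv : Convex ℝ (hypCone q E))
    (hP : ∀ X : Matrix (Fin N) (Fin N) ℝ, X.PosSemidef → matMap P X ∈ hypCone q E)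
    (u : Fin N → ℝ) {w : Fin N → ℝ} (hw : -matMap P (vecMulVec w w) ∈ hypCone q E) :
    matMap P (vecMulVec u u) - matMap P (vecMulVec (u + w) (u + w)) ∈ hypCone q E ∧
      matMap P (vecMulVec (u + w) (u + w)) - matMap P (vecMulVec u u) ∈ hypCone q E := by
  set A := matMap P (vecMulVec u u) with hA
  set Bm := matMap P (vecMulVec u w + vecMulVec w u) with hB
  set D := matMap P (vecMulVec w w) with hD
  have hexp : ∀ l : ℝ, matMap P (vecMulVec (u + l • w) (u + l • w)) =
      A + l • Bm + (l * l) • D := by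
    intro l
    rw [hA, hB, hD, ← matMap_smul, ← matMap_smul, ← matMap_add, ← matMap_add]
    congr 1
    ext i j
    simp [Matrix.vecMulVec_apply]
    ring
  have hl : ∀ l : ℝ, A + l • Bm ∈ hypCone q E := by
    intro l
    have h := add_mem' hE hconv (hP _ (psd_vv (u + l • w))) (smul_mem hE hw (mul_self_nonneg l))
    rw [hexp, smul_neg, add_neg_cancel_right] at h
    exact h
  have hB' : ∀ σ : ℝ, σ • Bm ∈ hypCone q E := by
    intro σ
    refine (cone_closed hE).mem_of_tendsto
      (f := fun n : ℕ => ((n : ℝ) + 1)⁻¹ • A + σ • Bm) (b := atTop) ?_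
      (Eventually.of_forall fun n => ?_)
    · have h0 : Tendsto (fun n : ℕ => ((n : ℝ) + 1)⁻¹) atTop (𝓝 0) := by
        simpa using (tendsto_one_div_add_atTop_nhds_zero_nat (𝕜 := ℝ))
      have h2 : Tendsto (fun n : ℕ => ((n : ℝ) + 1)⁻¹ • A + σ • Bm) atTop
          (𝓝 ((0 : ℝ) • A + σ • Bm)) := (h0.smul_const A).add_const (σ • Bm)
      simpa using h2
    · have hn : (0 : ℝ) < (n : ℝ) + 1 := by positivity
      have h := smul_mem hE (hl (((n : ℝ) + 1) * σ)) (inv_nonneg.2 hn.le)
      rwa [smul_add, smul_smul, ← mul_assoc, inv_mul_cancel₀ hn.ne', one_mul] at h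
  have h1 := hexp 1
  rw [one_smul, one_smul, mul_one, one_smul] at h1
  rw [h1]
  constructor
  · have h := add_mem' hE hconv (hB' (-1)) hw
    rw [neg_one_smul] at h
    rwa [show A - (A + Bm + D) = -Bm + -D by abel]
  · have h := add_mem' hE hconv (hB' 1) (hP _ (psd_vv w))
    rw [one_smul] at h
    rwa [show A + Bm + D - A = Bm + D by abel]

/-- The value on the line `t ↦ t e - x`. -/
theorem schurExt_line (hE : IsHyperbolic d q E) (x : Unit ⊕ ι ⊕ Fin N → ℝ) (t : ℝ)
    (ht : x (Sum.inl ()) - t ≠ 0) :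
    eval (t • schurPt N E - x) (schurExt q P) =
      (x (Sum.inl ()) - t) ^ d *
        eval ((fun i => x (Sum.inr (Sum.inl i))) - t • E -
          (x (Sum.inl ()) - t)⁻¹ • matMap P (vecMulVec (fun j => x (Sum.inr (Sum.inr j)))
            fun j => x (Sum.inr (Sum.inr j)))) q := by
  rw [schurExt_eval, ← eval_smul' q hE.1]
  congr 2
  funext i
  simp only [schurPt, matMap, Matrix.vecMulVec_apply, Pi.sub_apply, Pi.smul_apply, smul_eq_mul,
    Sum.elim_inl, Sum.elim_inr, mul_zero, zero_sub, neg_mul_neg]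
  field_simp
  ring

/-- Necessary conditions for membership. -/
theorem of_mem (hE : IsHyperbolic d q E) (hd : d ≠ 0) (hconv : Convex ℝ (hypCone q E))
    (hP : ∀ X : Matrix (Fin N) (Fin N) ℝ, X.PosSemidef → matMap P X ∈ hypCone q E)
    {x : Unit ⊕ ι ⊕ Fin N → ℝ} (hx : x ∈ hypCone (schurExt q P) (schurPt N E)) {s : ℝ}
    {C₀ : ι → ℝ} {v : Fin N → ℝ} (hs : x (Sum.inl ()) = s)
    (hC : (fun i => x (Sum.inr (Sum.inl i))) = C₀)
    (hv : (fun j => x (Sum.inr (Sum.inr j))) = v) :
    0 ≤ s ∧ (0 < s → C₀ - s⁻¹ • matMap P (vecMulVec v v) ∈ hypCone q E) ∧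
      (s = 0 → C₀ ∈ hypCone q E ∧ -matMap P (vecMulVec v v) ∈ hypCone q E) := by
  set Q₀ := matMap P (vecMulVec v v) with hQ₀
  set y : ℝ → ι → ℝ := fun t => C₀ - t • E - (s - t)⁻¹ • Q₀ with hy
  set m : ℝ := min 0 s with hm
  have hne : ∀ t, t < m → eval (y t) q ≠ 0 := by
    intro t ht h0
    have h1 : t < 0 := ht.trans_le (min_le_left _ _)
    have h2 : t < s := ht.trans_le (min_le_right _ _)
    have := hx t (by
      rw [schurExt_line hE x t (by rw [hs]; exact (sub_pos.2 h2).ne'), hs, hC, hv]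
      show (s - t) ^ d * eval (y t) q = 0
      rw [h0, mul_zero])
    linarith
  haveI : PreconnectedSpace {t : ℝ // t < m} :=
    Subtype.preconnectedSpace (s := Set.Iio m) isPreconnected_Iio
  obtain ⟨δ, hδ, hray⟩ := near_ray hE
  set T : ℝ := (‖C₀‖ + ‖Q₀‖) / δ + |s| + |m| + 2 with hT
  have hTpos : 0 < T := by positivity
  have hTm : -T < m := by
    have := neg_abs_le m
    have : 0 ≤ (‖C₀‖ + ‖Q₀‖) / δ + |s| := by positivity
    linarith
  have hstart : ∀ τ : ℝ, 0 ≤ τ → eval (y (-T) + τ • E) q ≠ 0 := by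
    intro τ hτ
    have e : y (-T) + τ • E = (T + τ) • E + (C₀ - (s + T)⁻¹ • Q₀) := by
      simp only [hy, sub_neg_eq_add, neg_smul]
      module
    rw [e]
    refine hray _ _ (by linarith) ?_
    have hsT : 1 ≤ s + T := by
      have := neg_abs_le s
      have : 0 ≤ (‖C₀‖ + ‖Q₀‖) / δ + |m| := by positivity
      linarith
    have h1 : ‖C₀ - (s + T)⁻¹ • Q₀‖ ≤ ‖C₀‖ + ‖Q₀‖ := by
      refine (norm_sub_le _ _).trans (add_le_add le_rfl ?_)
      rw [norm_smul, Real.norm_of_nonneg (by positivity)]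
      exact mul_le_of_le_one_left (norm_nonneg _) (inv_le_one_of_one_le₀ hsT)
    have h2 : ‖C₀‖ + ‖Q₀‖ < δ * T := by
      have h3 : δ * ((‖C₀‖ + ‖Q₀‖) / δ) = ‖C₀‖ + ‖Q₀‖ := mul_div_cancel₀ _ hδ.ne'
      have h4 : 0 < δ * (|s| + |m| + 2) := by positivity
      have h5 : δ * T = δ * ((‖C₀‖ + ‖Q₀‖) / δ) + δ * (|s| + |m| + 2) := by rw [hT]; ring
      linarith
    have h6 : δ * T ≤ δ * (T + τ) := mul_le_mul_of_nonneg_left (by linarith) hδ.le
    linarith
  have hmem : ∀ t, t < m → y t ∈ hypCone q E := fun t ht => by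
    refine path_mem hE (T := {t : ℝ // t < m}) (y := fun t => y t.1) ?_ (fun t => hne t.1 t.2)
      ⟨-T, hTm⟩ hstart ⟨t, ht⟩
    refine (continuous_const.sub (continuous_subtype_val.smul continuous_const)).sub ?_
    refine (Continuous.inv₀ (continuous_const.sub continuous_subtype_val) fun t => ?_).smul
      continuous_const
    exact (sub_pos.2 (t.2.trans_le (min_le_right _ _))).ne'
  have hlow : ∀ n : ℕ, ∀ r : ℝ, r ≤ 0 → r ≤ s → r - ((n : ℝ) + 1)⁻¹ < m := fun n r hr hr' => by
    have : (0 : ℝ) < ((n : ℝ) + 1)⁻¹ := by positivity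
    exact lt_min (by linarith) (by linarith)
  have h0 : Tendsto (fun n : ℕ => ((n : ℝ) + 1)⁻¹) atTop (𝓝 0) := by
    simpa using (tendsto_one_div_add_atTop_nhds_zero_nat (𝕜 := ℝ))
  have hback : ∀ r : ℝ, r ≤ 0 → r ≤ s → ∀ n : ℕ,
      (((n : ℝ) + 1)⁻¹ + (s - r)) • (C₀ - r • E + ((n : ℝ) + 1)⁻¹ • E) - Q₀ ∈ hypCone q E := by
    intro r hr hr' n
    have hn : (0 : ℝ) < ((n : ℝ) + 1)⁻¹ := by positivity
    have h := smul_mem hE (hmem _ (hlow n r hr hr'))
      (show (0 : ℝ) ≤ ((n : ℝ) + 1)⁻¹ + (s - r) by linarith)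
    have e : s - (r - ((n : ℝ) + 1)⁻¹) = ((n : ℝ) + 1)⁻¹ + (s - r) := by ring
    simp only [hy, e, smul_sub, smul_smul,
      mul_inv_cancel₀ (show ((n : ℝ) + 1)⁻¹ + (s - r) ≠ 0 by linarith), one_smul] at h
    convert h using 1
    module
  have hlim : ∀ r : ℝ, r ≤ 0 → r ≤ s → (s - r) • (C₀ - r • E) - Q₀ ∈ hypCone q E := by
    intro r hr hr'
    refine (cone_closed hE).mem_of_tendsto (b := atTop) ?_ (Eventually.of_forall (hback r hr hr'))
    have h2 : Tendsto (fun n : ℕ => (((n : ℝ) + 1)⁻¹ + (s - r)) •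
        (C₀ - r • E + ((n : ℝ) + 1)⁻¹ • E) - Q₀) atTop
        (𝓝 (((0 : ℝ) + (s - r)) • (C₀ - r • E + (0 : ℝ) • E) - Q₀)) :=
      ((h0.add_const (s - r)).smul (tendsto_const_nhds.add (h0.smul_const E))).sub_const Q₀
    simpa using h2
  have hs0 : 0 ≤ s := by
    by_contra hneg
    rw [not_le] at hneg
    have h1 := hlim s hneg.le le_rfl
    simp only [sub_self, zero_smul, zero_sub] at h1
    have h2 := hP _ (psd_vv v)
    rw [← hQ₀] at h2
    have hzero : eval (-Q₀) q = 0 := by
      set h : ι → ℂ := fun i => (E i : ℂ) with hh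
      obtain ⟨hnd, hco⟩ := linePoly_degree q hE.1 h fun i => (Q₀ i : ℂ)
      have hne0 : aeval h q ≠ 0 := by
        rw [hh, aeval_real]
        exact_mod_cast hE.2.1.ne'
      have hdeg : (linePoly q h fun i => (Q₀ i : ℂ)).degree ≠ 0 := by
        intro hdeg
        have h3 := Polynomial.le_natDegree_of_ne_zero (p := linePoly q h fun i => (Q₀ i : ℂ))
          (n := d) (by rw [hco]; exact hne0)
        rw [Polynomial.natDegree_eq_of_degree_eq_some hdeg] at h3
        exact hd (Nat.le_zero.1 h3)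
      obtain ⟨r, hr⟩ := IsAlgClosed.exists_root _ hdeg
      rw [Polynomial.IsRoot, linePoly_eval] at hr
      have him : r.im = 0 := real_root hE Q₀ r (by
        rw [← hr]; congr 2)
      have hrr : r = ((r.re : ℝ) : ℂ) := Complex.ext rfl (by simp [him])
      have hr0 : eval (Q₀ + r.re • E) q = 0 := by
        have : aeval (fun i => (((Q₀ + r.re • E) i : ℝ) : ℂ)) q = 0 := by
          rw [← hr]
          congr 2
          funext i
          conv_rhs => rw [hrr]
          simp [hh, add_comm]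
        rw [aeval_real] at this
        exact_mod_cast this
      rcases lt_trichotomy r.re 0 with h3 | h3 | h3
      · exfalso
        refine (mem_iff hE (-Q₀)).1 h1 (-r.re) (by linarith) ?_
        rw [neg_smul, ← neg_add, eval_neg' hE.1, hr0, mul_zero]
      · rw [h3, zero_smul, add_zero] at hr0
        rw [eval_neg' hE.1, hr0, mul_zero]
      · exact absurd hr0 ((mem_iff hE Q₀).1 h2 r.re h3)
    have := hx s (by
      rw [schurExt_eval]
      have e : (fun i => (s • schurPt N E - x) (Sum.inl ()) *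
          (s • schurPt N E - x) (Sum.inr (Sum.inl i)) -
          matMap P (vecMulVec (fun j => (s • schurPt N E - x) (Sum.inr (Sum.inr j)))
            fun j => (s • schurPt N E - x) (Sum.inr (Sum.inr j))) i) = -Q₀ := by
        funext i
        rw [hQ₀, ← hv]
        simp [schurPt, hs, matMap, Matrix.vecMulVec_apply]
      rw [e]
      exact hzero)
    linarith
  refine ⟨hs0, fun hpos => ?_, fun hzero => ⟨?_, ?_⟩⟩
  · have h := smul_mem hE (hlim 0 le_rfl hs0) (inv_nonneg.2 hs0)
    simpa [smul_sub, smul_smul, inv_mul_cancel₀ hpos.ne'] using h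
  · have hq : ∀ n : ℕ, C₀ + ((n : ℝ) + 1)⁻¹ • E ∈ hypCone q E := by
      intro n
      have h := hmem _ (hlow n 0 le_rfl hs0)
      have h2 := add_mem' hE hconv h (smul_mem hE (hP _ (psd_vv v))
        (show (0 : ℝ) ≤ ((s - (0 - ((n : ℝ) + 1)⁻¹)))⁻¹ by rw [hzero]; simp; positivity))
      simpa [hy, ← hQ₀] using h2
    refine (cone_closed hE).mem_of_tendsto (b := atTop) ?_ (Eventually.of_forall hq)
    simpa using (h0.smul_const E).const_add C₀
  · have h := hlim 0 le_rfl hs0
    simpa [hzero] using h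

/-- **Schur extensions of hyperbolicity cones with lifts have lifts.** -/
theorem schur_shadow (hE : IsHyperbolic d q E) (hS : IsShadow (hypCone q E))
    (hP : ∀ X : Matrix (Fin N) (Fin N) ℝ, X.PosSemidef → matMap P X ∈ hypCone q E) :
    IsShadow (hypCone (schurExt q P) (schurPt N E)) := by
  classical
  rcases eq_or_ne d 0 with hd | hd
  · subst hd
    have : hypCone (schurExt q P) (schurPt N E) = Set.univ := by
      refine Set.eq_univ_of_forall fun x t ht => absurd ?_ hE.2.1.ne'
      rw [schurExt_eval] at ht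
      have hc : ∀ w w' : ι → ℝ, eval w q = eval w' q := by
        intro w w'
        have h1 := eval_smul' q hE.1 0 w
        have h2 := eval_smul' q hE.1 0 w'
        simp only [zero_smul, pow_zero, one_mul] at h1 h2
        rw [← h1, ← h2]
      rw [hc E, ht]
    rw [this]
    exact isShadow_univ
  have hconv := shadow_convex hS
  set W := nullVecs hE hconv hP with hW
  obtain ⟨σ, hσ⟩ := W.mkQ.exists_rightInverse_of_surjective
    (LinearMap.range_eq_top.2 W.mkQ_surjective)
  set π₀ : (Fin N → ℝ) →ₗ[ℝ] (Fin N → ℝ) := σ.comp W.mkQ with hπ₀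
  have hmod : ∀ v, v - π₀ v ∈ W := by
    intro v
    rw [← Submodule.Quotient.eq]
    have h := LinearMap.congr_fun hσ (W.mkQ v)
    simp only [LinearMap.comp_apply, LinearMap.id_apply, Submodule.mkQ_apply] at h
    simpa [hπ₀] using h.symm
  have hkill : ∀ v ∈ W, π₀ v = 0 := by
    intro v hv
    have : W.mkQ v = 0 := by simpa [Submodule.Quotient.mk_eq_zero] using hv
    simp [hπ₀, this]
  have hswap : ∀ v : Fin N → ℝ,
      matMap P (vecMulVec (π₀ v) (π₀ v)) - matMap P (vecMulVec v v) ∈ hypCone q E ∧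
      matMap P (vecMulVec v v) - matMap P (vecMulVec (π₀ v) (π₀ v)) ∈ hypCone q E := by
    intro v
    have h := sub_null hE hconv hP (π₀ v) (w := v - π₀ v) (hmod v)
    rwa [add_sub_cancel] at h
  obtain ⟨k, a, A₀, A, B, hA₀, hA, hB, hH⟩ := hS
  let Xs : (Fin a ⊕ Fin N × Fin N → ℝ) →ₗ[ℝ] Matrix (Fin N) (Fin N) ℝ :=
    { toFun := fun u => of fun j l => (u (Sum.inr (j, l)) + u (Sum.inr (l, j))) / 2
      map_add' := fun u w => by ext; simp; ring
      map_smul' := fun c u => by ext; simp; ring }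
  have hXs : ∀ u, (Xs u).IsSymm := fun u => by
    ext j l
    simp [Xs, add_comm]
  let L : ((Unit ⊕ ι ⊕ Fin N) → ℝ) × (Fin a ⊕ Fin N × Fin N → ℝ) →ₗ[ℝ]
      Matrix ((Unit ⊕ Fin N) ⊕ Fin k) ((Unit ⊕ Fin N) ⊕ Fin k) ℝ :=
    { toFun := fun p => fromBlocks
        (bord (p.1 (Sum.inl ())) (π₀ fun j => p.1 (Sum.inr (Sum.inr j))) (Xs p.2)) 0 0
        (∑ i, (p.1 (Sum.inr (Sum.inl i)) - matMap P (Xs p.2) i) • A i +
          ∑ j, p.2 (Sum.inl j) • B j)
      map_add' := fun p r => by
        have e : (fun j => (p + r).1 (Sum.inr (Sum.inr j))) =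
            (fun j => p.1 (Sum.inr (Sum.inr j))) + fun j => r.1 (Sum.inr (Sum.inr j)) := rfl
        rw [Prod.snd_add, map_add, e, map_add, matMap_add, Matrix.fromBlocks_add, add_zero]
        congr 1
        all_goals first
          | (simp only [Prod.fst_add, Pi.add_apply, add_sub_add_comm, add_smul,
              Finset.sum_add_distrib]; abel; done)
          | (ext (i | i) (j | j) <;> simp [bord])
      map_smul' := fun c p => by
        have e : (fun j => (c • p).1 (Sum.inr (Sum.inr j))) =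
            c • fun j => p.1 (Sum.inr (Sum.inr j)) := rfl
        rw [Prod.smul_snd, map_smul, e, map_smul, matMap_smul, RingHom.id_apply,
          Matrix.fromBlocks_smul, smul_zero]
        congr 1
        all_goals first
          | (simp only [Prod.smul_fst, Pi.smul_apply, smul_eq_mul, ← mul_sub, ← smul_smul,
              ← Finset.smul_sum, smul_add]; done)
          | (ext (i | i) (j | j) <;> simp [bord]) }
  have hLs : ∀ p, (L p).IsSymm := by
    intro p
    refine Matrix.IsSymm.fromBlocks (bord_isSymm _ _ (hXs _)) (by simp) ?_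
    unfold Matrix.IsSymm
    rw [Matrix.transpose_add, Matrix.transpose_sum, Matrix.transpose_sum]
    simp only [Matrix.transpose_smul, (hA _).eq, (hB _).eq]
  set M₀ : Matrix ((Unit ⊕ Fin N) ⊕ Fin k) ((Unit ⊕ Fin N) ⊕ Fin k) ℝ :=
    fromBlocks 0 0 0 A₀ with hM₀
  have key := isShadow_of_linear M₀ L (Matrix.IsSymm.fromBlocks Matrix.isSymm_zero (by simp) hA₀)
    hLs
  convert key using 1
  ext x
  set s : ℝ := x (Sum.inl ()) with hs
  set C₀ : ι → ℝ := fun i => x (Sum.inr (Sum.inl i)) with hC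
  set v : Fin N → ℝ := fun j => x (Sum.inr (Sum.inr j)) with hv
  have hblocks : ∀ u, (M₀ + L (x, u)).PosSemidef ↔
      (bord s (π₀ v) (Xs u)).PosSemidef ∧
        (A₀ + ∑ i, (C₀ - matMap P (Xs u)) i • A i +
          ∑ j, u (Sum.inl j) • B j).PosSemidef := by
    intro u
    rw [← posSemidef_fromBlocks_iff]
    have : M₀ + L (x, u) = fromBlocks (bord s (π₀ v) (Xs u)) 0 0
        (A₀ + ∑ i, (C₀ - matMap P (Xs u)) i • A i + ∑ j, u (Sum.inl j) • B j) := by
      simp only [hM₀, L, LinearMap.coe_mk, AddHom.coe_mk, Matrix.fromBlocks_add, zero_add,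
        add_zero, hs, hC, hv, Pi.sub_apply, add_assoc]
    rw [this]
  simp only [Set.mem_ofPred_eq, hblocks]
  constructor
  · intro hx
    obtain ⟨hs0, hpos, hzero⟩ := of_mem hE hd hconv hP hx hs.symm hC.symm hv.symm
    have hfind : ∃ X : Matrix (Fin N) (Fin N) ℝ, X.IsSymm ∧ (bord s (π₀ v) X).PosSemidef ∧
        C₀ - matMap P X ∈ hypCone q E := by
      rcases hs0.eq_or_lt with h | h
      · obtain ⟨hC', hv'⟩ := hzero h.symm
        refine ⟨0, Matrix.isSymm_zero, ?_, ?_⟩
        · rw [hkill v hv', ← h]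
          have : (bord (0 : ℝ) (0 : Fin N → ℝ) 0) = 0 := by
            ext (i | i) (j | j) <;> simp [bord]
          rw [this]
          exact PosSemidef.zero
        · have : matMap P (0 : Matrix (Fin N) (Fin N) ℝ) = 0 := by funext i; simp [matMap]
          simpa [this] using hC'
      · refine ⟨s⁻¹ • vecMulVec (π₀ v) (π₀ v), ?_, bord_rankOne h _, ?_⟩
        · ext i j
          simp [Matrix.vecMulVec_apply, mul_comm]
        · have h3 := add_mem' hE hconv (hpos h)
            (smul_mem hE (hswap v).2 (inv_nonneg.2 h.le))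
          rw [matMap_smul]
          convert h3 using 1
          module
    obtain ⟨X, hXsym, hX1, hX2⟩ := hfind
    rw [hH] at hX2
    obtain ⟨u₀, hu₀⟩ := hX2
    refine ⟨Sum.elim u₀ fun p => X p.1 p.2, ?_⟩
    have hXe : Xs (Sum.elim u₀ fun p => X p.1 p.2) = X := by
      ext j l
      simp [Xs, hXsym.apply j l]
    rw [hXe]
    exact ⟨hX1, hu₀⟩
  · rintro ⟨u, hu1, hu2⟩
    have hmem : C₀ - matMap P (Xs u) ∈ hypCone q E := by
      rw [hH]
      exact ⟨fun j => u (Sum.inl j), hu2⟩
    have hs0 : 0 ≤ s := by simpa [bord] using hu1.diag_nonneg (i := Sum.inl ())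
    intro t ht
    by_contra hneg
    rw [not_le] at hneg
    have hat : 0 < s - t := by linarith
    rw [schurExt_line hE x t (by rw [← hs]; exact hat.ne'), ← hs, ← hC, ← hv] at ht
    rcases mul_eq_zero.1 ht with h1 | h1
    · exact pow_ne_zero d hat.ne' h1
    have hsc := hP _ (bord_schur (hXs u) hu1 hat (by linarith))
    have h := add_mem' hE hconv (add_mem' hE hconv hmem hsc)
      (smul_mem hE (hswap v).1 (inv_nonneg.2 hat.le))
    refine (mem_iff hE _).1 h (-t) (by linarith) ?_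
    rw [← h1]
    congr 2
    rw [show Xs u - (s - t)⁻¹ • vecMulVec (π₀ v) (π₀ v) =
      Xs u + (-(s - t)⁻¹) • vecMulVec (π₀ v) (π₀ v) by rw [neg_smul]; abel,
      matMap_add, matMap_smul]
    module

end Vale.Agent.P256
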